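import Vale.Agent.P067.Full.Opp.Fill

/-!
P067: the subspaces in general position to a complete flag (the opposite complex of type A) are
closed under adding generic points.
-/

set_option linter.unusedSectionVars false

namespace Vale.Agent.P067.Full.Opp

open Finset Module Vale.Agent.P067.Sparse

variable {K V : Type} [Field K] [AddCommGroup V] [Module K V] [FiniteDimensional K V]

/-- A complete flag of `E n`. -/
def IsFlag (E : ℕ → Submodule K V) (n : ℕ) : Prop :=
  Monotone E ∧ ∀ j ≤ n, finrank K (E j) = j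

/-- A proper nonzero subspace of `E n` in general position to the flag. -/
def OVtx (E : ℕ → Submodule K V) (n : ℕ) (x : Submodule K V) : Prop :=
  x ≤ E n ∧ x ≠ ⊥ ∧ finrank K x < n ∧ Disjoint x (E (n - finrank K x))

/-- A chain of such subspaces. -/
def OSimp (E : ℕ → Submodule K V) (n : ℕ) (σ : Finset (Submodule K V)) : Prop :=
  (∀ x ∈ σ, OVtx E n x) ∧ ∀ x ∈ σ, ∀ y ∈ σ, x ≤ y ∨ y ≤ x

variable {E : ℕ → Submodule K V} {n : ℕ}

theorem OSimp.mono {σ τ : Finset (Submodule K V)} (h : OSimp E n σ) (hτ : τ ⊆ σ) : OSimp E n τ :=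
  ⟨fun x hx => h.1 x (hτ hx), fun x hx y hy => h.2 x (hτ hx) y (hτ hy)⟩

theorem OSimp.eq_of_finrank {σ : Finset (Submodule K V)} (h : OSimp E n σ) {x y : Submodule K V}
    (hx : x ∈ σ) (hy : y ∈ σ) (he : finrank K x = finrank K y) : x = y :=
  (h.2 x hx y hy).elim (fun hle => Submodule.eq_of_le_of_finrank_eq hle he)
    fun hle => (Submodule.eq_of_le_of_finrank_eq hle he.symm).symm

theorem OSimp.insert [DecidableEq (Submodule K V)] {σ : Finset (Submodule K V)}
    (h : OSimp E n σ) {x : Submodule K V} (hv : OVtx E n x) (hc : ∀ y ∈ σ, x ≤ y ∨ y ≤ x) :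
    OSimp E n (insert x σ) := by
  refine ⟨fun y hy => ?_, fun y hy w hw => ?_⟩
  · rcases mem_insert.1 hy with rfl | hy
    exacts [hv, h.1 y hy]
  · rcases mem_insert.1 hy with rfl | hy' <;> rcases mem_insert.1 hw with rfl | hw'
    exacts [Or.inl le_rfl, hc w hw', (hc y hy').symm, h.2 y hy' w hw']

theorem OVtx.pos {x : Submodule K V} (h : OVtx E n x) : 0 < finrank K x :=
  Nat.pos_of_ne_zero fun h0 => h.2.1 (Submodule.finrank_eq_zero.1 h0)

/-- The subspace to avoid when a point is added to `u` inside `B`. -/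
theorem finrank_avoid_lt (hE : IsFlag E n) {u B : Submodule K V} (huB : u ≤ B)
    (hB : Disjoint B (E (n - finrank K B))) (hBn : finrank K B ≤ n)
    (hd : finrank K u < finrank K B) :
    ¬ B ≤ u ⊔ E (n - (finrank K u + 1)) := fun h => by
  set a := finrank K u with ha
  have e1 : B = u ⊔ E (n - (a + 1)) ⊓ B := by rw [← sup_inf_assoc_of_le _ huB, inf_eq_right.2 h]
  have h1 := Submodule.finrank_add_le_finrank_add_finrank u (E (n - (a + 1)) ⊓ B)
  rw [← e1, ← ha] at h1
  have h2 := Submodule.finrank_sup_add_finrank_inf_eq (E (n - (a + 1)) ⊓ B) (E (n - finrank K B))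
  have hbot : E (n - (a + 1)) ⊓ B ⊓ E (n - finrank K B) = ⊥ :=
    disjoint_iff.1 (hB.mono_left inf_le_right)
  rw [hbot, finrank_bot, hE.2 _ (Nat.sub_le _ _)] at h2
  have h3 := Submodule.finrank_mono (sup_le (inf_le_left : E (n - (a + 1)) ⊓ B ≤ E (n - (a + 1)))
    (hE.1 (show n - finrank K B ≤ n - (a + 1) by omega)))
  rw [hE.2 _ (Nat.sub_le _ _)] at h3
  omega

theorem ovtx_shift {u : Submodule K V} {p : V} (hE : IsFlag E n) (hule : u ≤ E n)
    (hdis : Disjoint u (E (n - finrank K u))) (hd : finrank K u + 1 < n) (hp : p ∈ E n)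
    (hp' : p ∉ u ⊔ E (n - (finrank K u + 1))) : OVtx E n (u ⊔ Submodule.span K {p}) := by
  have hp0 : p ≠ 0 := fun h => hp' (h ▸ zero_mem _)
  have hpu : p ∉ u := fun h => hp' (Submodule.mem_sup_left h)
  have hr := finrank_sup_line (K := K) hpu
  refine ⟨sup_le hule ((Submodule.span_singleton_le_iff_mem _ _).2 hp),
    fun h => hp0 ((Submodule.span_singleton_eq_bot).1 (le_bot_iff.1 (h ▸ le_sup_right))),
    by omega, ?_⟩
  rw [hr]
  refine (Disjoint.disjoint_sup_right_of_disjoint_sup_left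
    (hdis.mono_right (hE.1 (by omega))).symm ?_).symm
  rw [sup_comm]
  exact (Submodule.disjoint_span_singleton' hp0).2 hp'

theorem gsimp_iff (hE : IsFlag E n) {σ : Finset (Submodule K V)} :
    GSimp (OVtx E n) (E n) σ ↔ OSimp E n σ := by
  refine and_congr_left fun _ => forall₂_congr fun x _ => ⟨fun h => h.2.2.2, fun h => ?_⟩
  exact ⟨h.1, fun e => absurd h.2.2.1 (by rw [e, hE.2 n le_rfl]; exact lt_irrefl n), h.2.1, h⟩

theorem gen_ovtx (hE : IsFlag E n) (B : Submodule K V) (hB : B = E n ∨ OVtx E n B) :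
    Gen (OVtx E n) B := by
  have h0 : E 0 = ⊥ := Submodule.finrank_eq_zero.1 (hE.2 0 (Nat.zero_le _))
  obtain ⟨hBle, hBdis, hBn⟩ : B ≤ E n ∧ Disjoint B (E (n - finrank K B)) ∧ finrank K B ≤ n := by
    rcases hB with rfl | h
    · rw [hE.2 n le_rfl, Nat.sub_self, h0]
      exact ⟨le_rfl, disjoint_bot_right, le_rfl⟩
    · exact ⟨h.1, h.2.2.2, h.2.2.1.le⟩
  intro u huB hu hd
  have hdis : Disjoint u (E (n - finrank K u)) := by
    rcases hu with rfl | h
    exacts [disjoint_bot_left, h.2.2.2]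
  refine ⟨B ⊓ (u ⊔ E (n - (finrank K u + 1))), inf_le_left,
    fun e => finrank_avoid_lt hE huB hBdis hBn (by omega) (inf_eq_left.1 e),
    le_inf huB le_sup_left, fun p hp hp' => ?_⟩
  exact ovtx_shift hE (huB.trans hBle) hdis (by omega) (hBle hp) fun h => hp' ⟨hp, h⟩

/-- Fillings in the opposite complex. -/
theorem fill_opp (n : ℕ) : ∃ M : ℕ, ∀ (K V : Type) [Field K] [AddCommGroup V] [Module K V]
    [FiniteDimensional K V] [DecidableEq (Submodule K V)] (E : ℕ → Submodule K V) (m : ℕ),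
    IsFlag E n → m + 2 ≤ n →
    ∀ z : Ch (Submodule K V), On (fun σ => OSimp E n σ ∧ σ.card = m) z → bd z = 0 →
    M * z.support.card < Nat.card K →
    ∃ y : Ch (Submodule K V), On (fun σ => OSimp E n σ ∧ σ.card = m + 1) y ∧ bd y = z ∧
      y.support.card ≤ M * z.support.card := by
  obtain ⟨M, hM⟩ := fill n
  refine ⟨M, fun K V _ _ _ _ _ E m hE hm z hz hc hq => ?_⟩
  obtain ⟨y, h1, h2, h3⟩ := hM K V (OVtx E n) (E n) m (hE.2 n le_rfl)
    (fun x _ h => gen_ovtx hE x h) hm z (hz.mono fun σ h => ⟨(gsimp_iff hE).2 h.1, h.2⟩) hc hq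
  exact ⟨y, h1.mono fun σ h => ⟨(gsimp_iff hE).1 h.1, h.2⟩, h2, h3⟩

end Vale.Agent.P067.Full.Opp
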