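import Vale.Agent.P067.Full.Opp.Contr

/-!
P067: a contraction of one factor contracts a join; contractions along a relabelling of the vertices.
-/

set_option linter.unusedSectionVars false

namespace Vale.Agent.P067.Full.Opp

open Finset Vale.Agent.P067.Sparse

variable {X Y : Type} [DecidableEq X] [DecidableEq Y] {P Q : Finset X → Prop} {d M : ℕ}
  {H : Ch X →ₗ[ZMod 2] Ch X}

theorem IsContr.mono {d' M' : ℕ} (h : IsContr P d M H) (hd : d' ≤ d) (hM : M ≤ M') :
    IsContr P d' M' H :=
  fun σ hσ hc => ⟨(h σ hσ (hc.trans hd)).1, (h σ hσ (hc.trans hd)).2.1.trans hM,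
    (h σ hσ (hc.trans hd)).2.2⟩

/-- Union with a fixed face, extended linearly. -/
noncomputable def addFace (ρ : Finset X) : Ch X →ₗ[ZMod 2] Ch X :=
  Finsupp.lmapDomain (ZMod 2) (ZMod 2) (· ∪ ρ)

theorem addFace_single (ρ τ : Finset X) :
    addFace ρ (Finsupp.single τ 1) = Finsupp.single (τ ∪ ρ) 1 := by
  simp [addFace]

theorem mem_support_addFace {ρ σ : Finset X} {z : Ch X} (h : σ ∈ (addFace ρ z).support) :
    ∃ τ ∈ z.support, σ = τ ∪ ρ := by
  obtain ⟨τ, hτ, rfl⟩ := mem_image.1 (Finsupp.mapDomain_support h)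
  exact ⟨τ, hτ, rfl⟩

theorem bd_addFace {ρ : Finset X} {z : Ch X} (hz : On (fun τ => Disjoint τ ρ) z) :
    bd (addFace ρ z) = addFace ρ (bd z) + ∑ x ∈ ρ, addFace (ρ.erase x) z := by
  have h := eq_of_on (L := bd ∘ₗ addFace ρ)
    (L' := addFace ρ ∘ₗ bd + ∑ x ∈ ρ, addFace (ρ.erase x)) (fun τ hτ => ?_) hz
  · simpa using h
  simp only [LinearMap.comp_apply, LinearMap.add_apply, LinearMap.sum_apply, addFace_single,
    bd_single, map_sum]
  rw [sum_union hτ]
  refine congrArg₂ (· + ·) (sum_congr rfl fun x hx => ?_) (sum_congr rfl fun x hx => ?_)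
  · rw [erase_union_distrib, erase_eq_of_notMem (disjoint_left.1 hτ hx)]
  · rw [erase_union_distrib, erase_eq_of_notMem (disjoint_right.1 hτ hx)]

/-- The join with any complex on other vertices keeps a contraction, with the same bound. -/
theorem IsContr.join (hH : IsContr P d M H) (A : X → Prop)
    [DecidablePred A] (hPA : ∀ σ, P σ → ∀ x ∈ σ, A x) (hQA : ∀ σ, Q σ → ∀ x ∈ σ, ¬ A x) :
    ∃ H', IsContr (fun σ => P (σ.filter A) ∧ Q (σ.filter fun x => ¬ A x)) d M H' := by
  classical
  refine ⟨Finsupp.linearCombination (ZMod 2) fun σ =>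
    addFace (σ.filter fun x => ¬ A x) (H (Finsupp.single (σ.filter A) 1)), fun σ hσ hc => ?_⟩
  set ρ := σ.filter fun x => ¬ A x with hρ
  set α := σ.filter A with hα
  have hunion : α ∪ ρ = σ := filter_union_filter_not_eq A σ
  have hcard : α.card + ρ.card = σ.card := card_filter_add_card_filter_not A
  obtain ⟨hon, hM, hid⟩ := hH α hσ.1 (by omega)
  have hdisj : On (fun τ => Disjoint τ ρ) (H (Finsupp.single α 1)) := hon.mono fun τ hτ =>
    disjoint_left.2 fun x hx hx' => hQA ρ hσ.2 x hx' (hPA τ hτ.1 x hx)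
  simp only [Finsupp.linearCombination_single, one_smul]
  refine ⟨fun τ' hτ' => ?_, ?_, ?_⟩
  · obtain ⟨τ, hτ, rfl⟩ := mem_support_addFace hτ'
    have e1 : (τ ∪ ρ).filter A = τ := by
      rw [filter_union, filter_true_of_mem (hPA τ (hon τ hτ).1),
        filter_false_of_mem (hQA ρ hσ.2), union_empty]
    have e2 : (τ ∪ ρ).filter (fun x => ¬ A x) = ρ := by
      rw [filter_union, filter_false_of_mem fun x hx => not_not.2 (hPA τ (hon τ hτ).1 x hx),
        filter_true_of_mem (hQA ρ hσ.2), empty_union]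
    refine ⟨⟨e1.symm ▸ (hon τ hτ).1, e2.symm ▸ hσ.2⟩, ?_⟩
    rw [card_union_of_disjoint (hdisj τ hτ), (hon τ hτ).2]
    omega
  · exact ((card_le_card Finsupp.mapDomain_support).trans card_image_le).trans hM
  · rw [bd_addFace hdisj, bd_single σ, map_sum, ← sum_filter_add_sum_filter_not σ A]
    simp only [Finsupp.linearCombination_single, one_smul, ← hα, ← hρ]
    rw [sum_congr rfl fun x (hx : x ∈ α) => show
        addFace ((σ.erase x).filter fun y => ¬ A y)
          (H (Finsupp.single ((σ.erase x).filter A) 1)) =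
        addFace ρ (H (Finsupp.single (α.erase x) 1)) by
      rw [filter_erase, filter_erase, ← hρ, ← hα, erase_eq_of_notMem (s := ρ) fun h =>
        (mem_filter.1 h).2 (mem_filter.1 hx).2],
      sum_congr rfl fun x (hx : x ∈ ρ) => show
        addFace ((σ.erase x).filter fun y => ¬ A y)
          (H (Finsupp.single ((σ.erase x).filter A) 1)) =
        addFace (ρ.erase x) (H (Finsupp.single α 1)) by
      rw [filter_erase, filter_erase, ← hρ, ← hα,
        erase_eq_of_notMem (s := α) fun h => (mem_filter.1 hx).2 (mem_filter.1 h).2]]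
    have e : ∑ x ∈ α, addFace ρ (H (Finsupp.single (α.erase x) 1)) =
        addFace ρ (H (bd (Finsupp.single α 1))) := by simp only [bd_single, map_sum]
    rw [e, add_add_add_comm, add_self_eq_zero', add_zero, ← map_add, hid, addFace_single, hunion]

/-- Contractions along an injection covering all vertices of the faces. -/
theorem IsContr.pull (h : IsContr P d M H) (hP : ∀ σ, P σ → ∀ τ ⊆ σ, P τ) {f : Y → X} (hf : Function.Injective f)
    (hcov : ∀ σ, P σ → ∀ x ∈ σ, x ∈ Set.range f) :
    ∃ H', IsContr (fun σ => P (σ.image f)) d M H' := by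
  classical
  let back : Ch X →ₗ[ZMod 2] Ch Y :=
    Finsupp.lmapDomain (ZMod 2) (ZMod 2) fun σ => σ.preimage f hf.injOn
  have himg : ∀ σ, P σ → (σ.preimage f hf.injOn).image f = σ := fun σ hσ => by
    ext x
    simp only [mem_image, mem_preimage]
    exact ⟨fun ⟨y, hy, e⟩ => e ▸ hy, fun hx => let ⟨y, e⟩ := hcov σ hσ x hx; ⟨y, e ▸ hx, e⟩⟩
  have hback : ∀ {z : Ch X}, On P z → push f (back z) = z := fun hz =>
    eq_of_on (L := push f ∘ₗ back) (L' := LinearMap.id) (fun σ hσ => by
      simp [back, push_single, himg σ hσ]) hz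
  have hinj : Function.Injective (push f) := Finsupp.mapDomain_injective (image_injective hf)
  refine ⟨back ∘ₗ H ∘ₗ push f, fun σ hσ hc => ?_⟩
  have hc' : (σ.image f).card = σ.card := card_image_of_injective _ hf
  obtain ⟨hon, hM, hid⟩ := h (σ.image f) hσ (hc'.le.trans hc)
  simp only [LinearMap.comp_apply, push_single, ← bd_push hf]
  refine ⟨fun τ hτ => ?_, ?_, hinj ?_⟩
  · obtain ⟨τ', hτ', rfl⟩ := mem_image.1 (Finsupp.mapDomain_support hτ)
    obtain ⟨hP', hcard⟩ := hon τ' hτ'
    refine ⟨(himg τ' hP').symm ▸ hP', ?_⟩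
    rw [← card_image_of_injective _ hf, himg τ' hP', hcard, hc']
  · exact ((card_le_card Finsupp.mapDomain_support).trans card_image_le).trans hM
  · have hbd : On P (H (bd (Finsupp.single (σ.image f) 1))) := by
      rw [bd_single, map_sum]
      exact On.sum fun x hx => (h _ (hP _ hσ _ (erase_subset _ _))
        ((card_erase_le.trans hc'.le).trans hc)).1.mono fun τ hτ => hτ.1
    rw [map_add, ← bd_push hf, hback (hon.mono fun τ h => h.1), hback hbd, hid, push_single]

end Vale.Agent.P067.Full.Opp
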