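import Vale.Agent.P067.Defs
import Vale.Agent.P067.Sparse.Average
import Vale.Agent.P067.Full.Opp.Flag
import Vale.Agent.P067.Full.Opp.Join

/-!
P067: the opposite complex of type A: contractions with a bound independent of the field, extension
of simplices to chambers and transitivity of the flag stabiliser on the chambers.
-/

set_option linter.unusedSectionVars false

namespace Vale.Agent.P067.Full.Opp

open Finset Module Vale.Agent.P067.Sparse

/-- Contractions below the top dimension, with columns of bounded size, over large fields. -/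
theorem exists_contr_opp (n d : ℕ) (hd : d + 2 ≤ n) : ∃ M q₀ : ℕ, ∀ (K V : Type) [Field K]
    [AddCommGroup V] [Module K V] [FiniteDimensional K V] [DecidableEq (Submodule K V)]
    (E : ℕ → Submodule K V), IsFlag E n → q₀ < Nat.card K →
    ∃ H, IsContr (OSimp E n) d M H := by
  obtain ⟨M, hM⟩ := fill_opp n
  refine ⟨(M + 1) * cycleBound (M + 1) d, M * cycleBound (M + 1) d,
    fun K V _ _ _ _ _ E hE hq => ?_⟩
  refine exists_isContr (fun σ hσ τ hτ => hσ.mono hτ) d (M + 1) (by omega)
    fun j hj z hz hc hcard => ?_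
  obtain ⟨y, h1, h2, h3⟩ := hM K V E j hE (by omega) z hz hc (lt_of_le_of_lt
    (Nat.mul_le_mul_left _ (hcard.trans (cycleBound_mono (by omega) hj))) hq)
  exact ⟨y, h1, h2, h3.trans (Nat.mul_le_mul_right _ (by omega))⟩

variable {K V : Type} [Field K] [AddCommGroup V] [Module K V] [FiniteDimensional K V]
  [DecidableEq (Submodule K V)] {E : ℕ → Submodule K V} {n : ℕ}

theorem OSimp.card_lt {σ : Finset (Submodule K V)} (hσ : OSimp E n σ) : σ.card ≤ n - 1 := by
  refine (card_le_card_of_injOn (t := Icc 1 (n - 1)) (fun x : Submodule K V => finrank K x)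
    (fun x hx => mem_Icc.2 ⟨(hσ.1 x hx).pos, Nat.le_sub_one_of_lt (hσ.1 x hx).2.2.1⟩)
    fun x hx y hy he => hσ.eq_of_finrank hx hy he).trans (by simp [Nat.card_Icc])

/-- A simplex with a missing dimension grows. -/
theorem exists_insert (hE : IsFlag E n) {σ : Finset (Submodule K V)} (hσ : OSimp E n σ)
    (hc : σ.card + 1 < n) : ∃ x, x ∉ σ ∧ OSimp E n (insert x σ) := by
  classical
  obtain ⟨k, rfl⟩ : ∃ k, n = k + 1 := ⟨n - 1, by omega⟩
  have hex : ∃ r, r < k ∧ r + 1 ∉ σ.image fun x : Submodule K V => finrank K x := by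
    by_contra hno
    push Not at hno
    have h : (range k).image (· + 1) ⊆ σ.image fun x : Submodule K V => finrank K x := fun r hr => by
      obtain ⟨i, hi, rfl⟩ := mem_image.1 hr
      exact hno i (mem_range.1 hi)
    have h' := (card_le_card h).trans card_image_le
    rw [card_image_of_injective _ (add_left_injective 1), card_range] at h'
    omega
  let a := Nat.find hex
  obtain ⟨hak, ha⟩ : a < k ∧ a + 1 ∉ σ.image fun x : Submodule K V => finrank K x := Nat.find_spec hex
  obtain ⟨A, hAr, hAle, hAdis, hAlow⟩ : ∃ A : Submodule K V, finrank K A = a ∧ A ≤ E (k + 1) ∧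
      Disjoint A (E (k + 1 - a)) ∧ ∀ u ∈ σ, (finrank K u ≤ a → u ≤ A) ∧
        (a ≤ finrank K u → A ≤ u) := by
    rcases Nat.eq_zero_or_pos a with h0 | hpos
    · refine ⟨⊥, by rw [finrank_bot, h0], bot_le, disjoint_bot_left, fun u hu => ⟨fun h => ?_,
        fun _ => bot_le⟩⟩
      have := (hσ.1 u hu).pos
      omega
    · have hm := Nat.find_min hex (show a - 1 < Nat.find hex by omega)
      rw [show a - 1 + 1 = a by omega] at hm
      push Not at hm
      obtain ⟨A, hA, hAr⟩ := mem_image.1 (hm (by omega))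
      refine ⟨A, hAr, (hσ.1 A hA).1, hAr ▸ (hσ.1 A hA).2.2.2, fun u hu => ⟨fun h => ?_, fun h => ?_⟩⟩
      · exact (hσ.2 u hu A hA).elim id fun h' => (Submodule.eq_of_le_of_finrank_le h' (by omega)).ge
      · exact (hσ.2 A hA u hu).elim id fun h' => (Submodule.eq_of_le_of_finrank_le h' (by omega)).ge
  have hne : ∀ u ∈ σ, finrank K u ≠ a + 1 := fun u hu h => ha (mem_image.2 ⟨u, hu, h⟩)
  obtain ⟨B, hBr, hBle, hBdis, hAB, hBup⟩ : ∃ B : Submodule K V, a + 1 < finrank K B ∧
      B ≤ E (k + 1) ∧ Disjoint B (E (k + 1 - finrank K B)) ∧ A ≤ B ∧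
        ∀ u ∈ σ, a + 1 < finrank K u → B ≤ u := by
    rcases (σ.filter fun u : Submodule K V => a + 1 < finrank K u).eq_empty_or_nonempty with h | h
    · refine ⟨E (k + 1), by rw [hE.2 _ le_rfl]; omega, le_rfl, ?_, hAle, fun u hu h' => ?_⟩
      · have h0 : E 0 = ⊥ := Submodule.finrank_eq_zero.1 (hE.2 0 (by omega))
        rw [hE.2 _ le_rfl, Nat.sub_self, h0]
        exact disjoint_bot_right
      · exact absurd h' (filter_eq_empty_iff.1 h hu)
    · obtain ⟨B, hB, hmin⟩ := exists_min_image _ (fun u : Submodule K V => finrank K u) h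
      obtain ⟨hB, hBr⟩ := mem_filter.1 hB
      refine ⟨B, hBr, (hσ.1 B hB).1, (hσ.1 B hB).2.2.2, (hAlow B hB).2 (by omega),
        fun u hu h' => ?_⟩
      exact (hσ.2 B hB u hu).elim id fun h'' =>
        (Submodule.eq_of_le_of_finrank_le h'' (hmin u (mem_filter.2 ⟨hu, h'⟩))).ge
  have hnle : ¬ B ≤ A ⊔ E (k + 1 - (finrank K A + 1)) :=
    finrank_avoid_lt hE hAB hBdis (by have := Submodule.finrank_mono hBle; rw [hE.2 _ le_rfl] at this; omega)
      (by omega)
  obtain ⟨v, hvB, hv⟩ := SetLike.not_le_iff_exists.1 hnle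
  have hx := ovtx_shift (u := A) hE hAle (hAr.symm ▸ hAdis) (by omega) (hBle hvB) hv
  have hxr := finrank_sup_line (K := K) (fun h => hv (Submodule.mem_sup_left h) : v ∉ A)
  refine ⟨A ⊔ Submodule.span K {v}, fun h => hne _ h (by omega), hσ.insert hx fun u hu => ?_⟩
  rcases Nat.lt_or_ge (a + 1) (finrank K u) with h | h
  · exact Or.inl ((sup_le hAB ((Submodule.span_singleton_le_iff_mem _ _).2 hvB)).trans (hBup u hu h))
  · exact Or.inr (((hAlow u hu).1 (by have := hne u hu; omega)).trans le_sup_left)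

/-- Every simplex lies in one with all dimensions. -/
theorem exists_chamber (hE : IsFlag E n) {σ : Finset (Submodule K V)} (hσ : OSimp E n σ) :
    ∃ t, OSimp E n t ∧ t.card = n - 1 ∧ σ ⊆ t := by
  induction h : n - 1 - σ.card generalizing σ with
  | zero => exact ⟨σ, hσ, by have := hσ.card_lt; omega, subset_rfl⟩
  | succ i ih =>
    obtain ⟨x, hx, hins⟩ := exists_insert hE hσ (by omega)
    obtain ⟨t, h1, h2, h3⟩ := ih hins (by rw [card_insert_of_notMem hx]; omega)
    exact ⟨t, h1, h2, (subset_insert _ _).trans h3⟩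

section Fintype

variable [Fintype (Submodule K V)]

/-- The chambers. -/
noncomputable def chambers (E : ℕ → Submodule K V) (n : ℕ) : Finset (Finset (Submodule K V)) := by
  classical
  exact univ.filter fun t => OSimp E n t ∧ t.card = n - 1

theorem mem_chambers {t : Finset (Submodule K V)} :
    t ∈ chambers E n ↔ OSimp E n t ∧ t.card = n - 1 := by
  classical
  simp [chambers]

theorem mem_faces_chambers (hE : IsFlag E n) {m : ℕ} {σ : Finset (Submodule K V)} :
    σ ∈ faces (chambers E n) m ↔ OSimp E n σ ∧ σ.card = m := by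
  simp only [faces, mem_filter, mem_univ, true_and, mem_chambers]
  refine ⟨fun ⟨hc, t, ht, hst⟩ => ⟨ht.1.mono hst, hc⟩, fun ⟨hσ, hc⟩ => ⟨hc, ?_⟩⟩
  obtain ⟨t, h1, h2, h3⟩ := exists_chamber hE hσ
  exact ⟨t, ⟨h1, h2⟩, h3⟩

theorem chambers_nonempty (hE : IsFlag E n) : (chambers E n).Nonempty := by
  obtain ⟨t, h1, h2, -⟩ := exists_chamber (σ := ∅) hE ⟨by simp, by simp⟩
  exact ⟨t, mem_chambers.2 ⟨h1, h2⟩⟩

end Fintype

theorem ovtx_map {e : V ≃ₗ[K] V} (he : ∀ j ≤ n, (E j).map (e : V →ₗ[K] V) = E j)
    (x : Submodule K V) : OVtx E n (x.map (e : V →ₗ[K] V)) ↔ OVtx E n x := by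
  let φ : Submodule K V ≃o Submodule K V := Submodule.orderIsoMapComap e
  have hd : finrank K (x.map (e : V →ₗ[K] V) : Submodule K V) = finrank K x :=
    LinearEquiv.finrank_map_eq e x
  rw [OVtx, OVtx, hd]
  refine and_congr ?_ (and_congr (not_congr ?_) (and_congr_right fun _ => ?_))
  · conv_lhs => rw [← he n le_rfl]
    exact φ.le_iff_le
  · rw [← Submodule.finrank_eq_zero, hd, Submodule.finrank_eq_zero]
  · conv_lhs => rw [← he (n - finrank K x) (Nat.sub_le _ _)]
    exact disjoint_map_orderIso_iff (f := φ)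

theorem exists_adapted (hE : IsFlag E n) {t : Finset (Submodule K V)} (ht : OSimp E n t)
    (hc : t.card = n - 1) : ∃ (W : ℕ → Submodule K V) (v : ℕ → V),
      W 0 = ⊥ ∧ W n = E n ∧ (∀ x ∈ t, finrank K x < n ∧ W (finrank K x) = x) ∧
      ∀ i < n, W (i + 1) = W i ⊔ Submodule.span K {v i} ∧
        E (n - i) = E (n - (i + 1)) ⊔ Submodule.span K {v i} := by
  classical
  have h0 : E 0 = ⊥ := Submodule.finrank_eq_zero.1 (hE.2 0 (by omega))
  have hmid : ∀ r, 0 < r → r < n → ∃ x ∈ t, finrank K x = r := by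
    have h : (t.image fun x : Submodule K V => finrank K x) = Icc 1 (n - 1) := by
      refine eq_of_subset_of_card_le (fun r hr => ?_) (le_of_eq ?_)
      · obtain ⟨x, hx, rfl⟩ := mem_image.1 hr
        have := (ht.1 x hx).pos
        have := (ht.1 x hx).2.2.1
        exact mem_Icc.2 (by omega)
      · rw [card_image_of_injOn fun x hx y hy e => ht.eq_of_finrank hx hy e, hc, Nat.card_Icc]
        omega
    intro r hr hrn
    exact mem_image.1 (h ▸ mem_Icc.2 ⟨hr, by omega⟩ : r ∈ t.image fun x : Submodule K V => finrank K x)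
  choose! f hf using hmid
  let W : ℕ → Submodule K V := fun r => if r = 0 then ⊥ else if r < n then f r else E n
  have hW : ∀ r ≤ n, finrank K (W r) = r ∧ W r ≤ E n ∧ Disjoint (W r) (E (n - r)) := by
    intro r hr
    rcases Nat.eq_zero_or_pos r with rfl | h1
    · rw [show W 0 = ⊥ from if_pos rfl]
      exact ⟨finrank_bot K V, bot_le, disjoint_bot_left⟩
    rcases Nat.lt_or_ge r n with h2 | h2
    · rw [show W r = f r from (if_neg h1.ne').trans (if_pos h2)]
      obtain ⟨hft, hfr⟩ := hf r h1 h2
      refine ⟨hfr, (ht.1 _ hft).1, ?_⟩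
      have := (ht.1 _ hft).2.2.2
      rwa [hfr] at this
    · rw [show W r = E n from (if_neg h1.ne').trans (if_neg h2.not_gt)]
      obtain rfl : r = n := by omega
      exact ⟨hE.2 r le_rfl, le_rfl, by rw [Nat.sub_self, h0]; exact disjoint_bot_right⟩
  have hmono : ∀ r < n, W r ≤ W (r + 1) := by
    intro r hr
    rcases Nat.eq_zero_or_pos r with rfl | hpos
    · simp [W]
    rcases Nat.lt_or_ge (r + 1) n with h | h
    · simp only [W, if_neg (show r ≠ 0 by omega), if_neg (show r + 1 ≠ 0 by omega), if_pos hr,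
        if_pos h]
      obtain ⟨h1, h2⟩ := hf r hpos hr
      obtain ⟨h3, h4⟩ := hf (r + 1) (by omega) h
      exact (ht.2 _ h1 _ h3).elim id fun h' =>
        absurd (Submodule.finrank_mono h') (by omega)
    · have e : W (r + 1) = E n := by simp [W, show ¬ (r + 1 < n) by omega]
      exact e ▸ (hW r hr.le).2.1
  have hv : ∀ i < n, ∃ v : V, W (i + 1) = W i ⊔ Submodule.span K {v} ∧
      E (n - i) = E (n - (i + 1)) ⊔ Submodule.span K {v} := by
    intro i hi
    have h := Submodule.finrank_sup_add_finrank_inf_eq (W (i + 1)) (E (n - i))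
    have h' := Submodule.finrank_mono (sup_le (hW (i + 1) hi).2.1 (hE.1 (Nat.sub_le n i)))
    rw [(hW (i + 1) hi).1, hE.2 (n - i) (Nat.sub_le _ _)] at h
    rw [hE.2 n le_rfl] at h'
    obtain ⟨v, hv, hv0⟩ := Submodule.exists_mem_ne_zero_of_ne_bot
      (p := W (i + 1) ⊓ E (n - i)) fun hb => by rw [hb, finrank_bot] at h; omega
    have hvW : v ∉ W i := fun h => hv0 (Submodule.disjoint_def.1 (hW i hi.le).2.2 v h hv.2)
    have hvE : v ∉ E (n - (i + 1)) := fun h =>
      hv0 (Submodule.disjoint_def.1 (hW (i + 1) hi).2.2 v hv.1 h)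
    refine ⟨v, ?_, ?_⟩
    · refine (Submodule.eq_of_le_of_finrank_eq
        (sup_le (hmono i hi) ((Submodule.span_singleton_le_iff_mem _ _).2 hv.1)) ?_).symm
      rw [finrank_sup_line hvW, (hW i hi.le).1, (hW (i + 1) hi).1]
    · refine (Submodule.eq_of_le_of_finrank_eq
        (sup_le (hE.1 (by omega)) ((Submodule.span_singleton_le_iff_mem _ _).2 hv.2)) ?_).symm
      rw [finrank_sup_line hvE, hE.2 _ (Nat.sub_le _ _), hE.2 _ (Nat.sub_le _ _)]
      omega
  choose! v hv using hv
  refine ⟨W, v, by simp [W], ?_, fun x hx => ?_, hv⟩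
  · by_cases hn : n = 0
    · subst hn
      simp [W, h0]
    · simp [W, hn]
  · have hr := (ht.1 x hx).pos
    have hr' := (ht.1 x hx).2.2.1
    simp only [W, if_neg (show finrank K x ≠ 0 by omega), if_pos hr']
    exact ⟨hr', ht.eq_of_finrank (hf _ hr hr').1 hx (hf _ hr hr').2⟩

/-- The unipotent maps of the flag are transitive on the chambers. -/
theorem exists_aut (hE : IsFlag E n) (htop : E n = ⊤) {t t' : Finset (Submodule K V)}
    (ht : OSimp E n t) (hc : t.card = n - 1) (ht' : OSimp E n t') (hc' : t'.card = n - 1) :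
    ∃ e : V ≃ₗ[K] V, (∀ j ≤ n, (E j).map (e : V →ₗ[K] V) = E j) ∧
      (∀ j < n, ∀ x ∈ E (j + 1), e x - x ∈ E j) ∧
      t.image (fun x => x.map (e : V →ₗ[K] V)) = t' := by
  classical
  obtain ⟨W, v, hW0, hWn, hWt, hv⟩ := exists_adapted hE ht hc
  obtain ⟨W', u, hW0', hWn', hWt', hu⟩ := exists_adapted hE ht' hc'
  have hscale : ∀ i < n, ∃ a : K, a ≠ 0 ∧ a • u i - v i ∈ E (n - (i + 1)) := by
    intro i hi
    have hmem : v i ∈ E (n - (i + 1)) ⊔ Submodule.span K {u i} := by
      rw [← (hu i hi).2, (hv i hi).2]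
      exact Submodule.mem_sup_right (Submodule.mem_span_singleton_self _)
    obtain ⟨y, hy, z, hz, he⟩ := Submodule.mem_sup.1 hmem
    obtain ⟨a, rfl⟩ := Submodule.mem_span_singleton.1 hz
    refine ⟨a, fun h0 => ?_, ?_⟩
    · rw [h0, zero_smul, add_zero] at he
      have h := congrArg (fun W : Submodule K V => finrank K W) (hv i hi).2
      rw [sup_eq_left.2 ((Submodule.span_singleton_le_iff_mem _ _).2 (he ▸ hy))] at h
      simp only [hE.2 _ (Nat.sub_le _ _)] at h
      omega
    · rw [← he, sub_add_cancel_right]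
      exact neg_mem hy
  choose! a ha using hscale
  let v' : ℕ → V := fun i => a i • u i
  have hv' : ∀ i < n, W' (i + 1) = W' i ⊔ Submodule.span K {v' i} ∧
      E (n - i) = E (n - (i + 1)) ⊔ Submodule.span K {v' i} := fun i hi => by
    simpa only [v', Submodule.span_singleton_smul_eq (IsUnit.mk0 _ (ha i hi).1)] using hu i hi
  have hfin : finrank K V = n := by rw [← finrank_top K V, ← htop, hE.2 n le_rfl]
  have hspan : ∀ (W : ℕ → Submodule K V) (v : ℕ → V), W 0 = ⊥ → W n = E n →
      (∀ i < n, W (i + 1) = W i ⊔ Submodule.span K {v i}) →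
      ⊤ ≤ Submodule.span K (Set.range fun i : Fin n => v i) := by
    intro W v h0 hn hs
    have h : ∀ r ≤ n, W r ≤ Submodule.span K (Set.range fun i : Fin n => v i) := by
      intro r
      induction r with
      | zero => exact fun _ => h0.le.trans bot_le
      | succ r ih =>
        intro hr
        rw [hs r hr]
        exact sup_le (ih (by omega)) ((Submodule.span_singleton_le_iff_mem _ _).2
          (Submodule.subset_span ⟨⟨r, hr⟩, rfl⟩))
    have := h n le_rfl
    rwa [hn, htop] at this
  have hcard : Fintype.card (Fin n) = finrank K V := by rw [Fintype.card_fin, hfin]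
  let b := basisOfTopLeSpanOfCardEqFinrank (fun i : Fin n => v i)
    (hspan W v hW0 hWn fun i hi => (hv i hi).1) hcard
  let b' := basisOfTopLeSpanOfCardEqFinrank (fun i : Fin n => v' i)
    (hspan W' v' hW0' hWn' fun i hi => (hv' i hi).1) hcard
  let e : V ≃ₗ[K] V := b.equiv b' (Equiv.refl _)
  have hev : ∀ i < n, e (v i) = v' i := fun i hi => by
    have h := b.equiv_apply ⟨i, hi⟩ b' (Equiv.refl _)
    simpa [b, b', e] using h
  have hspanmap : ∀ i < n, (Submodule.span K {v i}).map (e : V →ₗ[K] V) =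
      Submodule.span K {v' i} := fun i hi => by
    rw [Submodule.map_span, Set.image_singleton, LinearEquiv.coe_coe, hev i hi]
  have hmapE : ∀ j ≤ n, (E j).map (e : V →ₗ[K] V) = E j := by
    intro j
    induction j with
    | zero =>
      intro h
      rw [Submodule.finrank_eq_zero.1 (hE.2 0 h), Submodule.map_bot]
    | succ j ih =>
      intro hj
      have h1 := (hv (n - (j + 1)) (by omega)).2
      have h2 := (hv' (n - (j + 1)) (by omega)).2
      rw [show n - (n - (j + 1)) = j + 1 by omega,
        show n - (n - (j + 1) + 1) = j by omega] at h1 h2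
      conv_lhs => rw [h1]
      rw [Submodule.map_sup, ih (by omega), hspanmap _ (by omega), ← h2]
  have hmapW : ∀ r ≤ n, (W r).map (e : V →ₗ[K] V) = W' r := by
    intro r
    induction r with
    | zero => intro _; rw [hW0, hW0', Submodule.map_bot]
    | succ r ih =>
      intro hr
      rw [(hv r hr).1, (hv' r hr).1, Submodule.map_sup, ih (by omega), hspanmap r hr]
  have huni : ∀ j < n, ∀ x ∈ E (j + 1), e x - x ∈ E j := by
    intro j
    induction j with
    | zero =>
      intro hj x hx
      have h1 := (hv (n - 1) (by omega)).2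
      rw [show n - (n - 1) = 1 by omega, show n - (n - 1 + 1) = 0 by omega,
        Submodule.finrank_eq_zero.1 (hE.2 0 (Nat.zero_le _)), bot_sup_eq] at h1
      rw [h1] at hx
      obtain ⟨c, rfl⟩ := Submodule.mem_span_singleton.1 hx
      have h2 := (ha (n - 1) (by omega)).2
      rw [show n - (n - 1 + 1) = 0 by omega] at h2
      rw [map_smul, hev _ (by omega), ← smul_sub]
      exact Submodule.smul_mem _ _ h2
    | succ j ih =>
      intro hj x hx
      have h1 := (hv (n - (j + 1 + 1)) (by omega)).2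
      rw [show n - (n - (j + 1 + 1)) = j + 1 + 1 by omega,
        show n - (n - (j + 1 + 1) + 1) = j + 1 by omega] at h1
      rw [h1] at hx
      obtain ⟨y, hy, z, hz, rfl⟩ := Submodule.mem_sup.1 hx
      obtain ⟨c, rfl⟩ := Submodule.mem_span_singleton.1 hz
      have h2 := (ha (n - (j + 1 + 1)) (by omega)).2
      rw [show n - (n - (j + 1 + 1) + 1) = j + 1 by omega] at h2
      rw [map_add, map_smul, hev _ (by omega), add_sub_add_comm, ← smul_sub]
      exact add_mem (hE.1 (Nat.le_succ j) (ih (by omega) y hy)) (Submodule.smul_mem _ _ h2)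
  refine ⟨e, hmapE, huni, eq_of_subset_of_card_le (fun y hy => ?_) ?_⟩
  · obtain ⟨x, hx, rfl⟩ := mem_image.1 hy
    have hr := (hWt x hx).1
    have hpos := (ht.1 x hx).pos
    have hxe : x.map (e : V →ₗ[K] V) = W' (finrank K x) := by rw [← hmapW _ hr.le, (hWt x hx).2]
    rw [hxe]
    have hmid : ∃ y ∈ t', finrank K y = finrank K x := by
      by_contra hno
      push Not at hno
      have h : (t'.image fun y : Submodule K V => finrank K y) ⊆ (Icc 1 (n - 1)).erase (finrank K x) := fun r hr' => by
        obtain ⟨y, hy, rfl⟩ := mem_image.1 hr'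
        have := (ht'.1 y hy).pos
        have := (ht'.1 y hy).2.2.1
        exact mem_erase.2 ⟨hno y hy, mem_Icc.2 (by omega)⟩
      have h' := card_le_card h
      rw [card_image_of_injOn fun x hx y hy e => ht'.eq_of_finrank hx hy e, hc',
        card_erase_of_mem (mem_Icc.2 ⟨hpos, by omega⟩), Nat.card_Icc] at h'
      omega
    obtain ⟨y, hy, hyr⟩ := hmid
    rw [← hyr, (hWt' y hy).2]
    exact hy
  · rw [card_image_of_injective _ (Submodule.map_injective_of_injective e.injective), hc, hc']

/-- A unipotent map of the flag fixing a chamber fixes everything: the action on the chambers is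
simply transitive. -/
theorem eq_self_of_fix (hE : IsFlag E n) {t : Finset (Submodule K V)} (ht : OSimp E n t)
    (hc : t.card = n - 1) {e : V ≃ₗ[K] V} (he : ∀ j < n, ∀ x ∈ E (j + 1), e x - x ∈ E j)
    (hfix : ∀ x ∈ t, x.map (e : V →ₗ[K] V) = x) : ∀ y ∈ E n, e y = y := by
  classical
  obtain ⟨W, v, hW0, hWn, hWt, hv⟩ := exists_adapted hE ht hc
  have hWr : ∀ r ≤ n, finrank K (W r) ≤ r ∧ W r ≤ E n := by
    intro r
    induction r with
    | zero => exact fun _ => ⟨by rw [hW0, finrank_bot], hW0.le.trans bot_le⟩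
    | succ r ih =>
      intro hr
      obtain ⟨h1, h2⟩ := ih (by omega)
      rw [(hv r hr).1]
      refine ⟨(Submodule.finrank_add_le_finrank_add_finrank _ _).trans
        (add_le_add h1 ((finrank_span_le_card _).trans (by simp))), sup_le h2 ?_⟩
      refine le_trans ?_ (hE.1 (Nat.sub_le n r))
      rw [(hv r hr).2]
      exact le_sup_right
  have hmem : ∀ i < n, v i ∈ W (i + 1) ∧ v i ∈ E (n - i) := fun i hi =>
    ⟨(hv i hi).1 ▸ Submodule.mem_sup_right (Submodule.mem_span_singleton_self _),
      (hv i hi).2 ▸ Submodule.mem_sup_right (Submodule.mem_span_singleton_self _)⟩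
  have hev : ∀ i < n, e (v i) = v i := by
    intro i hi
    have h1 := he (n - (i + 1)) (by omega) (v i)
      (by rw [show n - (i + 1) + 1 = n - i by omega]; exact (hmem i hi).2)
    rcases Nat.eq_or_lt_of_le hi with h | h
    · rw [show n - (i + 1) = 0 by omega, Submodule.finrank_eq_zero.1 (hE.2 0 (Nat.zero_le _)),
        Submodule.mem_bot, sub_eq_zero] at h1
      exact h1
    · obtain ⟨x, hx, hxr⟩ : ∃ x ∈ t, finrank K x = i + 1 := by
        by_contra hno
        push Not at hno
        have hsub : (t.image fun y : Submodule K V => finrank K y) ⊆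
            (Icc 1 (n - 1)).erase (i + 1) := fun r hr => by
          obtain ⟨y, hy, rfl⟩ := mem_image.1 hr
          have := (ht.1 y hy).pos
          have := (ht.1 y hy).2.2.1
          exact mem_erase.2 ⟨hno y hy, mem_Icc.2 (by omega)⟩
        have h' := card_le_card hsub
        rw [card_image_of_injOn fun x hx y hy e => ht.eq_of_finrank hx hy e, hc,
          card_erase_of_mem (mem_Icc.2 ⟨by omega, by omega⟩), Nat.card_Icc] at h'
        omega
      have hWx : W (i + 1) = x := hxr ▸ (hWt x hx).2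
      have hvx : v i ∈ x := hWx ▸ (hmem i hi).1
      have hevx : e (v i) ∈ x := (hfix x hx).le ⟨_, hvx, rfl⟩
      exact sub_eq_zero.1 (Submodule.disjoint_def.1 (hxr ▸ (ht.1 x hx).2.2.2) _
        (x.sub_mem hevx hvx) h1)
  have hW : ∀ r ≤ n, ∀ y ∈ W r, e y = y := by
    intro r
    induction r with
    | zero =>
      intro _ y hy
      rw [hW0, Submodule.mem_bot] at hy
      rw [hy, map_zero]
    | succ r ih =>
      intro hr y hy
      rw [(hv r hr).1] at hy
      obtain ⟨a, ha, z, hz, rfl⟩ := Submodule.mem_sup.1 hy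
      obtain ⟨c, rfl⟩ := Submodule.mem_span_singleton.1 hz
      rw [map_add, map_smul, hev r hr, ih (by omega) a ha]
  exact fun y hy => hW n le_rfl y (hWn ▸ hy)

end Vale.Agent.P067.Full.Opp
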