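import Vale.Agent.P067.Sparse.Average

/-!
P067: bounded contractions of face predicates built from bounded fillings of small cycles, and their
consequences: acyclicity, joins, coboundary expansion by averaging.
-/

set_option linter.unusedSectionVars false

namespace Vale.Agent.P067.Full.Opp

open Finset Vale.Agent.P067.Sparse

variable {X : Type} [DecidableEq X] {P : Finset X → Prop}

/-- `H` is a chain contraction of the faces `P` in cardinalities at most `d`, with columns of at
most `M` faces. -/
def IsContr (P : Finset X → Prop) (d M : ℕ) (H : Ch X →ₗ[ZMod 2] Ch X) : Prop :=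
  ∀ σ, P σ → σ.card ≤ d →
    On (fun τ => P τ ∧ τ.card = σ.card + 1) (H (Finsupp.single σ 1)) ∧
    (H (Finsupp.single σ 1)).support.card ≤ M ∧
    bd (H (Finsupp.single σ 1)) + H (bd (Finsupp.single σ 1)) = Finsupp.single σ 1

/-- The size of the cycles met in the recursion, for fillings of size `M`. -/
def cycleBound (M : ℕ) : ℕ → ℕ
  | 0 => 1
  | j + 1 => 1 + (j + 1) * (M * cycleBound M j)

theorem cycleBound_mono {M i j : ℕ} (hM : 1 ≤ M) (h : i ≤ j) : cycleBound M i ≤ cycleBound M j := by
  refine monotone_nat_of_le_succ (fun n => ?_) h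
  show cycleBound M n ≤ 1 + (n + 1) * (M * cycleBound M n)
  calc cycleBound M n = 1 * (1 * cycleBound M n) := by ring
    _ ≤ (n + 1) * (M * cycleBound M n) :=
        Nat.mul_le_mul (by omega) (Nat.mul_le_mul_right _ hM)
    _ ≤ _ := Nat.le_add_left _ _

theorem exists_isContr (hP : ∀ σ, P σ → ∀ τ ⊆ σ, P τ) (d M : ℕ) (hM : 1 ≤ M)
    (hfill : ∀ j ≤ d, ∀ z : Ch X, On (fun σ => P σ ∧ σ.card = j) z → bd z = 0 →
      z.support.card ≤ cycleBound M j →
      ∃ y : Ch X, On (fun σ => P σ ∧ σ.card = j + 1) y ∧ bd y = z ∧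
        y.support.card ≤ M * z.support.card) :
    ∃ H, IsContr P d (M * cycleBound M d) H := by
  classical
  suffices h : ∀ j ≤ d, ∃ H, IsContr P j (M * cycleBound M j) H from h d le_rfl
  intro j hj
  induction j with
  | zero =>
    have hex : ∀ σ, P σ ∧ σ.card = 0 → ∃ y : Ch X, On (fun τ => P τ ∧ τ.card = 0 + 1) y ∧
        bd y = Finsupp.single σ 1 ∧ y.support.card ≤ M := by
      intro σ hσ
      obtain ⟨y, h1, h2, h3⟩ := hfill 0 hj (Finsupp.single σ 1) (On.single hσ)
        (by rw [bd_single, card_eq_zero.1 hσ.2, sum_empty])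
        ((card_le_card Finsupp.support_single_subset).trans (card_singleton σ).le)
      refine ⟨y, h1, h2, h3.trans ?_⟩
      simpa only [mul_one] using Nat.mul_le_mul_left M
        ((card_le_card Finsupp.support_single_subset).trans (card_singleton σ).le)
    choose! y hy using hex
    refine ⟨Finsupp.linearCombination (ZMod 2) y, fun σ hσ hc => ?_⟩
    have hc0 : σ.card = 0 := Nat.le_zero.1 hc
    obtain ⟨h1, h2, h3⟩ := hy σ ⟨hσ, hc0⟩
    simp only [Finsupp.linearCombination_single, one_smul]
    refine ⟨by rw [hc0]; exact h1, by simpa [cycleBound] using h3, ?_⟩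
    rw [h2, bd_single, card_eq_zero.1 hc0, sum_empty, map_zero, add_zero]
  | succ j ih =>
    obtain ⟨H, hH⟩ := ih (by omega)
    have hface : ∀ σ, P σ → σ.card = j + 1 → ∀ x ∈ σ, P (σ.erase x) ∧ (σ.erase x).card = j :=
      fun σ hσ hc x hx => ⟨hP σ hσ _ (erase_subset _ _),
        by rw [card_erase_of_mem hx, hc, Nat.add_sub_cancel]⟩
    have hex : ∀ σ, P σ ∧ σ.card = j + 1 → ∃ y : Ch X, On (fun τ => P τ ∧ τ.card = j + 1 + 1) y ∧
        bd y = Finsupp.single σ 1 + H (bd (Finsupp.single σ 1)) ∧
        y.support.card ≤ M * cycleBound M (j + 1) := by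
      rintro σ ⟨hσ, hc⟩
      have hon : On (fun τ => P τ ∧ τ.card = j) (bd (Finsupp.single σ 1)) := by
        rw [bd_single]
        exact On.sum fun x hx => On.single (hface σ hσ hc x hx)
      have hbd : bd (H (bd (Finsupp.single σ 1))) = bd (Finsupp.single σ 1) := by
        have h := eq_of_on (L := bd.comp H + H.comp bd) (L' := LinearMap.id)
          (fun τ hτ => (hH τ hτ.1 hτ.2.le).2.2) hon
        simpa [bd_bd] using h
      have hsum : H (bd (Finsupp.single σ 1)) = ∑ x ∈ σ, H (Finsupp.single (σ.erase x) 1) := by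
        rw [bd_single, map_sum]
      have hcyc : (Finsupp.single σ 1 + H (bd (Finsupp.single σ 1))).support.card ≤
          cycleBound M (j + 1) := by
        refine (card_le_card Finsupp.support_add).trans ((card_union_le _ _).trans
          (add_le_add ((card_le_card Finsupp.support_single_subset).trans (card_singleton σ).le) ?_))
        rw [hsum]
        refine (card_support_sum_le _ _).trans ((sum_le_sum fun x hx =>
          (hH _ (hface σ hσ hc x hx).1 (hface σ hσ hc x hx).2.le).2.1).trans (le_of_eq ?_))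
        rw [sum_const, smul_eq_mul, hc]
      obtain ⟨y, h1, h2, h3⟩ := hfill (j + 1) hj
        (Finsupp.single σ 1 + H (bd (Finsupp.single σ 1)))
        ((On.single ⟨hσ, hc⟩).add (by
          rw [hsum]
          refine On.sum fun x hx => (hH _ (hface σ hσ hc x hx).1 (hface σ hσ hc x hx).2.le).1.mono
            fun τ hτ => ⟨hτ.1, by rw [hτ.2, (hface σ hσ hc x hx).2]⟩))
        (by rw [map_add, hbd, add_self_eq_zero']) hcyc
      exact ⟨y, h1, h2, h3.trans (Nat.mul_le_mul_left _ hcyc)⟩
    choose! y hy using hex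
    refine ⟨Finsupp.linearCombination (ZMod 2) fun σ =>
      if σ.card = j + 1 then y σ else H (Finsupp.single σ 1), fun σ hσ hc => ?_⟩
    set H' := Finsupp.linearCombination (ZMod 2) fun σ : Finset X =>
      if σ.card = j + 1 then y σ else H (Finsupp.single σ 1) with hH'
    have hsingle : ∀ τ, H' (Finsupp.single τ 1) =
        if τ.card = j + 1 then y τ else H (Finsupp.single τ 1) := fun τ => by simp [hH']
    have hlow : ∀ z : Ch X, On (fun τ => τ.card ≤ j) z → H' z = H z :=
      fun z hz => eq_of_on (fun τ hτ => by rw [hsingle, if_neg (by omega)]) hz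
    have hbdlow : On (fun τ : Finset X => τ.card ≤ j) (bd (Finsupp.single σ 1)) := by
      rw [bd_single]
      exact On.sum fun x hx => On.single (by rw [card_erase_of_mem hx]; omega)
    rw [hsingle, hlow _ hbdlow]
    split_ifs with hcase
    · obtain ⟨h1, h2, h3⟩ := hy σ ⟨hσ, hcase⟩
      refine ⟨by rw [hcase]; exact h1, h3, ?_⟩
      rw [h2, add_assoc, add_self_eq_zero', add_zero]
    · obtain ⟨h1, h2, h3⟩ := hH σ hσ (by omega)
      exact ⟨h1, h2.trans (Nat.mul_le_mul_left _ (cycleBound_mono hM (by omega))), h3⟩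

/-- A cycle in the range of a contraction is the boundary of its image. -/
theorem IsContr.exists_filling {d M j : ℕ} {H : Ch X →ₗ[ZMod 2] Ch X} (h : IsContr P d M H)
    (hj : j ≤ d) {z : Ch X} (hz : On (fun σ => P σ ∧ σ.card = j) z) (hc : bd z = 0) :
    ∃ y : Ch X, On (fun σ => P σ ∧ σ.card = j + 1) y ∧ bd y = z := by
  refine ⟨H z, ?_, ?_⟩
  · have e : H z = ∑ σ ∈ z.support, z σ • H (Finsupp.single σ 1) := by
      conv_lhs => rw [← Finsupp.sum_single z]
      rw [Finsupp.sum, map_sum]
      exact sum_congr rfl fun σ _ => by rw [← map_smul, Finsupp.smul_single, smul_eq_mul, mul_one]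
    rw [e]
    exact On.sum fun σ hσ τ hτ => by
      obtain ⟨h1, h2⟩ := (h σ (hz σ hσ).1 ((hz σ hσ).2.le.trans hj)).1 τ (Finsupp.support_smul hτ)
      exact ⟨h1, h2.trans (by rw [(hz σ hσ).2])⟩
  · have e := eq_of_on (L := bd.comp H + H.comp bd) (L' := LinearMap.id)
      (fun τ hτ => (h τ hτ.1 (hτ.2.le.trans hj)).2.2) hz
    simpa [hc] using e

end Vale.Agent.P067.Full.Opp
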