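import Vale.Agent.P067.Sparse.Fill
import Vale.Agent.P067.Full.Opp.Contr

/-!
P067: complexes of chains of subspaces closed under adding a generic point. Cycles below the top
dimension bound chains of comparable size once the field is larger than a multiple of the cycle.
-/

set_option linter.unusedSectionVars false

namespace Vale.Agent.P067.Full.Opp

open Finset Module Vale.Agent.P067.Sparse

variable {K V : Type} [Field K] [AddCommGroup V] [Module K V] [FiniteDimensional K V]

/-- Adding a point of `B` outside one proper subspace keeps the property `G`, for the subspaces of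
codimension at least two in `B`. -/
def Gen (G : Submodule K V → Prop) (B : Submodule K V) : Prop :=
  ∀ P ≤ B, (P = ⊥ ∨ G P) → finrank K P + 1 < finrank K B →
    ∃ H, H ≤ B ∧ H ≠ B ∧ P ≤ H ∧ ∀ p ∈ B, p ∉ H → G (P ⊔ Submodule.span K {p})

/-- A proper nonzero subspace of `B` with property `G`. -/
def GVtx (G : Submodule K V → Prop) (B x : Submodule K V) : Prop :=
  x ≤ B ∧ x ≠ B ∧ x ≠ ⊥ ∧ G x

/-- A chain of such subspaces. -/
def GSimp (G : Submodule K V → Prop) (B : Submodule K V) (σ : Finset (Submodule K V)) : Prop :=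
  (∀ x ∈ σ, GVtx G B x) ∧ ∀ x ∈ σ, ∀ y ∈ σ, x ≤ y ∨ y ≤ x

variable {G : Submodule K V → Prop} {B : Submodule K V}

theorem GSimp.mono {σ τ : Finset (Submodule K V)} (h : GSimp G B σ) (hτ : τ ⊆ σ) : GSimp G B τ :=
  ⟨fun x hx => h.1 x (hτ hx), fun x hx y hy => h.2 x (hτ hx) y (hτ hy)⟩

theorem GSimp.eq_of_finrank {σ : Finset (Submodule K V)} (h : GSimp G B σ) {x y : Submodule K V}
    (hx : x ∈ σ) (hy : y ∈ σ) (he : finrank K x = finrank K y) : x = y :=
  (h.2 x hx y hy).elim (fun hle => Submodule.eq_of_le_of_finrank_eq hle he)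
    fun hle => (Submodule.eq_of_le_of_finrank_eq hle he.symm).symm

theorem GSimp.insert [DecidableEq (Submodule K V)] {σ : Finset (Submodule K V)}
    (h : GSimp G B σ) {x : Submodule K V} (hv : GVtx G B x) (hc : ∀ y ∈ σ, x ≤ y ∨ y ≤ x) :
    GSimp G B (insert x σ) := by
  refine ⟨fun y hy => ?_, fun y hy w hw => ?_⟩
  · rcases mem_insert.1 hy with rfl | hy
    exacts [hv, h.1 y hy]
  · rcases mem_insert.1 hy with rfl | hy' <;> rcases mem_insert.1 hw with rfl | hw'
    exacts [Or.inl le_rfl, hc w hw', (hc y hy').symm, h.2 y hy' w hw']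

theorem GVtx.pos {x : Submodule K V} (h : GVtx G B x) : 0 < finrank K x :=
  Nat.pos_of_ne_zero fun h0 => h.2.2.1 (Submodule.finrank_eq_zero.1 h0)

theorem GVtx.finrank_lt {x : Submodule K V} (h : GVtx G B x) : finrank K x < finrank K B :=
  Submodule.finrank_lt_finrank_of_lt (lt_of_le_of_ne h.1 h.2.1)

/-- A point of `B` outside few proper subspaces. -/
theorem exists_point {B : Submodule K V} (s : Finset (Submodule K V))
    (hs : ∀ x ∈ s, x ≤ B ∧ x ≠ B) (hcard : s.card < Nat.card K) :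
    ∃ p ∈ B, ∀ x ∈ s, p ∉ x := by
  have : Finite K := Nat.finite_of_card_ne_zero (by omega)
  have h := Submodule.iUnion_ssubset_of_forall_ne_top_of_card_lt (univ : Finset {x // x ∈ s})
    (fun x => Submodule.comap B.subtype x.1) (fun x hx => (hs x.1 x.2).2 (le_antisymm (hs x.1 x.2).1
      fun v hv => by simpa using hx.ge (Submodule.mem_top : (⟨v, hv⟩ : B) ∈ ⊤)))
    (by rw [ENat.card_eq_coe_natCard, card_univ, Fintype.card_coe]; exact_mod_cast hcard)
  obtain ⟨p, -, hp⟩ := Set.exists_of_ssubset h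
  refine ⟨p.1, p.2, fun x hx hpx => hp ?_⟩
  simp only [Set.mem_iUnion]
  exact ⟨⟨x, hx⟩, mem_univ _, hpx⟩

theorem fill (n : ℕ) : ∃ M : ℕ, ∀ (K V : Type) [Field K] [AddCommGroup V] [Module K V]
    [FiniteDimensional K V] [DecidableEq (Submodule K V)] (G : Submodule K V → Prop)
    (B : Submodule K V) (m : ℕ), finrank K B = n →
    (∀ x ≤ B, x = B ∨ G x → Gen G x) → m + 2 ≤ n →
    ∀ z : Ch (Submodule K V), On (fun σ => GSimp G B σ ∧ σ.card = m) z → bd z = 0 →
    M * z.support.card < Nat.card K →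
    ∃ y : Ch (Submodule K V), On (fun σ => GSimp G B σ ∧ σ.card = m + 1) y ∧ bd y = z ∧
      y.support.card ≤ M * z.support.card := by
  classical
  induction n with
  | zero => exact ⟨0, fun K V _ _ _ _ _ G B m _ _ hm => absurd hm (by omega)⟩
  | succ n ih =>
    obtain ⟨M₁, hM₁⟩ := ih
    refine ⟨(n + 1 + 2 * 2 ^ n) * (1 + M₁),
      fun K V _ _ _ _ _ G B m hB hgen hm z hz hcyc hq => ?_⟩
    rcases eq_or_ne z 0 with rfl | hz0
    · exact ⟨0, On.zero, map_zero _, by simp⟩
    have hzpos : 1 ≤ z.support.card := card_pos.2 (Finsupp.support_nonempty_iff.2 hz0)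
    -- no hyperplanes
    let U : Finset (Submodule K V) := (z.support.biUnion id).filter fun x => finrank K x = n
    have hU : ∀ x ∈ U, ∃ σ ∈ z.support, x ∈ σ ∧ finrank K x = n := fun x hx => by
      obtain ⟨h, hd⟩ := mem_filter.1 hx
      obtain ⟨σ, hσ, hxσ⟩ := mem_biUnion.1 h
      exact ⟨σ, hσ, hxσ, hd⟩
    have hU1 : ∀ σ ∈ z.support, ∀ x ∈ U, ∀ y ∈ U, x ∈ σ → y ∈ σ → x = y :=
      fun σ hσ x hx y hy hxσ hyσ => (hz σ hσ).1.eq_of_finrank hxσ hyσ
        ((mem_filter.1 hx).2.trans (mem_filter.1 hy).2.symm)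
    have hex : ∀ x ∈ U, ∃ f : Ch (Submodule K V), bd f = lk x z ∧
        f.support.card ≤ M₁ * (lk x z).support.card ∧
        On (fun σ => (GSimp G B σ ∧ σ.card = m) ∧
          ∀ u ∈ σ, u ≤ x ∧ finrank K u < n) f := by
      intro x hx
      obtain ⟨σ₀, hσ₀, hxσ₀, hxd⟩ := hU x hx
      have hxV := (hz σ₀ hσ₀).1.1 x hxσ₀
      obtain ⟨m', rfl⟩ : ∃ m', m = m' + 1 := ⟨m - 1, by
        have := card_pos.2 ⟨x, hxσ₀⟩
        have := (hz σ₀ hσ₀).2
        omega⟩
      have hl : On (fun σ => GSimp G x σ ∧ σ.card = m') (lk x z) := by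
        intro σ hσ
        obtain ⟨τ, hτ, hxτ, rfl⟩ := mem_support_lk hσ
        refine ⟨⟨fun u hu => ?_, ((hz τ hτ).1.mono (erase_subset _ _)).2⟩, ?_⟩
        · obtain ⟨hne, huτ⟩ := mem_erase.1 hu
          have huV := (hz τ hτ).1.1 u huτ
          have hlt := huV.finrank_lt
          have hux : u ≤ x := ((hz τ hτ).1.2 u huτ x hxτ).elim id fun h =>
            (Submodule.eq_of_le_of_finrank_le h (by omega)).ge
          exact ⟨hux, hne, huV.2.2⟩
        · rw [card_erase_of_mem hxτ, (hz τ hτ).2, Nat.add_sub_cancel]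
      have hlc : (lk x z).support.card ≤ z.support.card :=
        (card_lk_le x z).trans (card_filter_le _ _)
      obtain ⟨f, hf, hbd, hfc⟩ := hM₁ K V G x m' hxd
        (fun y hy hy' => hgen y (hy.trans hxV.1)
          (Or.inr (hy'.elim (fun e => e ▸ hxV.2.2.2) id))) (by omega) (lk x z) hl
        (by rw [bd_lk, hcyc, map_zero]) (lt_of_le_of_lt (Nat.mul_le_mul
          (le_trans (by omega : M₁ ≤ 1 * (1 + M₁)) (Nat.mul_le_mul_right _ (by omega))) hlc) hq)
      refine ⟨f, hbd, hfc, fun σ hσ => ?_⟩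
      obtain ⟨⟨hv, hch⟩, hc⟩ := hf σ hσ
      have hin : ∀ u ∈ σ, u ≤ x ∧ finrank K u < n := fun u hu =>
        ⟨(hv u hu).1, hxd ▸ (hv u hu).finrank_lt⟩
      exact ⟨⟨⟨fun u hu => ⟨(hin u hu).1.trans hxV.1, fun h => by
          have := (hin u hu).2
          rw [h, hB] at this
          omega, (hv u hu).2.2⟩, hch⟩, hc⟩, hin⟩
    choose! f hf using hex
    obtain ⟨hy₁c, he₁, hz₁c⟩ := eliminate U hU1 f (M := M₁)
      fun x hx => ⟨(hf x hx).1, (hf x hx).2.1⟩
    generalize hy₁ : ∑ x ∈ U, cone x (f x) = y₁ at hy₁c he₁ hz₁c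
    have hy₁on : On (fun σ => GSimp G B σ ∧ σ.card = m + 1) y₁ := by
      rw [← hy₁]
      refine On.sum fun x hx σ hσ => ?_
      obtain ⟨σ₀, hσ₀, hxσ₀, -⟩ := hU x hx
      obtain ⟨τ, hτ, hxτ, rfl⟩ := mem_support_cone hσ
      obtain ⟨⟨hs, hc⟩, hin⟩ := (hf x hx).2.2 τ hτ
      exact ⟨hs.insert ((hz σ₀ hσ₀).1.1 x hxσ₀) fun u hu => Or.inr (hin u hu).1,
        by rw [card_insert_of_notMem hxτ, hc]⟩
    have hz₁ : On (fun σ => (GSimp G B σ ∧ σ.card = m) ∧ ∀ u ∈ σ, finrank K u < n)
        (z + bd y₁) := by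
      rw [he₁]
      refine on_filter_add (fun σ hσ hσU => ⟨hz σ hσ, fun u hu => ?_⟩)
        (fun x hx => (hf x hx).2.2.mono fun σ h => ⟨h.1, fun u hu => (h.2 u hu).2⟩) fun x _ σ h => h
      have := ((hz σ hσ).1.1 u hu).finrank_lt
      refine lt_of_le_of_ne (by omega) fun h => hσU u (mem_filter.2 ⟨mem_biUnion.2 ⟨σ, hσ, hu⟩, h⟩) hu
    have hc₁ : bd (z + bd y₁) = 0 := by rw [map_add, hcyc, bd_bd, add_zero]
    generalize hw₁ : z + bd y₁ = z₁ at hz₁ hc₁ hz₁c
    -- a generic point
    obtain ⟨H₀, hH₀B, hH₀ne, -, hH₀⟩ := hgen B le_rfl (Or.inl rfl) ⊥ bot_le (Or.inl rfl)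
      (by rw [finrank_bot, hB]; omega)
    have hsep : ∀ u ∈ z₁.support.biUnion id, ∃ H, H ≤ B ∧ H ≠ B ∧ u ≤ H ∧
        ∀ p ∈ B, p ∉ H → G (u ⊔ Submodule.span K {p}) := fun u hu => by
      obtain ⟨σ, hσ, huσ⟩ := mem_biUnion.1 hu
      have huV := (hz₁ σ hσ).1.1.1 u huσ
      exact hgen B le_rfl (Or.inl rfl) u huV.1 (Or.inr huV.2.2.2)
        (by rw [hB]; have := (hz₁ σ hσ).2 u huσ; omega)
    choose! H hH using hsep
    let S : Finset (Submodule K V) := insert H₀ ((z₁.support.biUnion id).image H)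
    have hS : S.card ≤ 1 + (n + 1) * ((1 + M₁) * z.support.card) := by
      refine (card_insert_le _ _).trans ?_
      rw [add_comm 1]
      refine Nat.add_le_add_right (card_image_le.trans ((card_biUnion_le_card_mul _ _ (n + 1)
        fun σ hσ => ?_).trans ?_)) 1
      · rw [id, (hz₁ σ hσ).1.2]
        omega
      · rw [mul_comm]
        exact Nat.mul_le_mul_left _ hz₁c
    obtain ⟨p, hp, hpS⟩ := exists_point (B := B) S (fun x hx => by
        rcases mem_insert.1 hx with rfl | hx
        · exact ⟨hH₀B, hH₀ne⟩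
        · obtain ⟨u, hu, rfl⟩ := mem_image.1 hx
          exact ⟨(hH u hu).1, (hH u hu).2.1⟩)
      (lt_of_le_of_lt (hS.trans (by
        calc 1 + (n + 1) * ((1 + M₁) * z.support.card)
            ≤ 1 * ((1 + M₁) * z.support.card) + (n + 1) * ((1 + M₁) * z.support.card) := by
              refine Nat.add_le_add_right ?_ _
              rw [one_mul]
              exact Nat.one_le_iff_ne_zero.2 (Nat.mul_ne_zero (by omega) (by omega))
          _ = (n + 2) * ((1 + M₁) * z.support.card) := by ring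
          _ ≤ (n + 1 + 2 * 2 ^ n) * ((1 + M₁) * z.support.card) :=
              Nat.mul_le_mul_right _ (by have := Nat.one_le_two_pow (n := n); omega)
          _ = _ := by ring)) hq)
    have hpn : p ∉ H₀ := hpS _ (mem_insert_self _ _)
    have hp0 : p ≠ 0 := fun h => hpn (h ▸ zero_mem _)
    let P : Submodule K V → Prop := fun u => GVtx G B (u ⊔ Submodule.span K {p})
    have hG : ∀ σ ∈ z₁.support, ∀ u ∈ σ, P u := fun σ hσ u hu => by
      have hu' : u ∈ z₁.support.biUnion id := mem_biUnion.2 ⟨σ, hσ, hu⟩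
      have huV := (hz₁ σ hσ).1.1.1 u hu
      have hpH := hpS _ (mem_insert_of_mem (mem_image_of_mem H hu'))
      have hr := finrank_sup_line (K := K) (fun h => hpH ((hH u hu').2.2.1 h) : p ∉ u)
      refine ⟨sup_le huV.1 ((Submodule.span_singleton_le_iff_mem _ _).2 hp), fun h => ?_,
        fun h => hp0 ((Submodule.span_singleton_eq_bot).1 (le_bot_iff.1 (h ▸ le_sup_right))),
        (hH u hu').2.2.2 p hp hpH⟩
      rw [h, hB] at hr
      have := (hz₁ σ hσ).2 u hu
      omega
    -- shift by the point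
    have loop : ∀ i, i ≤ n → ∃ y : Ch (Submodule K V),
        On (fun σ => GSimp G B σ ∧ σ.card = m + 1) y ∧
        On (fun σ => (GSimp G B σ ∧ σ.card = m) ∧
          ∀ u ∈ σ, p ∈ u ∨ (P u ∧ finrank K u + i < n)) (z₁ + bd y) ∧
        y.support.card ≤ 2 ^ i * z₁.support.card ∧
        (z₁ + bd y).support.card ≤ 2 ^ i * z₁.support.card := by
      intro i
      induction i with
      | zero =>
        intro _
        refine ⟨0, On.zero, fun σ hσ => ?_, by simp, by simp⟩
        rw [map_zero, add_zero] at hσ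
        exact ⟨(hz₁ σ hσ).1, fun u hu => Or.inr ⟨hG σ hσ u hu, by simpa using (hz₁ σ hσ).2 u hu⟩⟩
      | succ i hi =>
        intro hle
        obtain ⟨y, hy, hz', hyc, hzc⟩ := hi (by omega)
        generalize hw : z₁ + bd y = w at hz' hzc
        have hwc : bd w = 0 := by rw [← hw, map_add, hc₁, bd_bd, add_zero]
        let W : Finset (Submodule K V) :=
          (w.support.biUnion id).filter fun x => p ∉ x ∧ finrank K x + i + 1 = n
        have h1 : ∀ σ ∈ w.support, ∀ x ∈ W, ∀ x' ∈ W, x ∈ σ → x' ∈ σ → x = x' :=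
          fun σ hσ x hx x' hx' hxσ hxσ' => (hz' σ hσ).1.1.eq_of_finrank hxσ hxσ'
            (by have := (mem_filter.1 hx).2.2; have := (mem_filter.1 hx').2.2; omega)
        have hg : ∀ x ∈ W, GVtx G B x ∧
            On (fun σ => ((GSimp G B σ ∧ σ.card = m) ∧
              ∀ u ∈ σ, p ∈ u ∨ (P u ∧ finrank K u + (i + 1) < n)) ∧ ∀ u ∈ σ, x ≤ u ∨ u ≤ x)
            (cone (x ⊔ Submodule.span K {p}) (lk x w)) := by
          intro x hx
          obtain ⟨hmem, hpx, hdx⟩ := mem_filter.1 hx
          obtain ⟨σ₀, hσ₀, hxσ₀⟩ := mem_biUnion.1 hmem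
          refine ⟨(hz' σ₀ hσ₀).1.1.1 x hxσ₀, fun σ hσ => ?_⟩
          obtain ⟨ρ, hρ, hrρ, rfl⟩ := mem_support_cone hσ
          obtain ⟨τ, hτ, hxτ, rfl⟩ := mem_support_lk hρ
          obtain ⟨⟨hs, hc⟩, hv⟩ := hz' τ hτ
          have hGx : P x := (((hz' σ₀ hσ₀).2 x hxσ₀).resolve_left hpx).1
          have hin : ∀ u ∈ τ.erase x, (p ∈ u ∨ (P u ∧ finrank K u + (i + 1) < n)) ∧
              (u ≤ x ∨ x ⊔ Submodule.span K {p} ≤ u) := by
            intro u hu
            obtain ⟨hne, huτ⟩ := mem_erase.1 hu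
            have hne' : finrank K u ≠ finrank K x := fun e => hne (hs.eq_of_finrank huτ hxτ e)
            rcases hv u huτ with hpu | ⟨hGu, hdu⟩
            · refine ⟨Or.inl hpu, (hs.2 u huτ x hxτ).imp id fun h => ?_⟩
              exact sup_le h ((Submodule.span_singleton_le_iff_mem _ _).2 hpu)
            · refine ⟨Or.inr ⟨hGu, by omega⟩, (hs.2 u huτ x hxτ).imp id fun h => ?_⟩
              have := Submodule.finrank_mono h
              omega
          refine ⟨⟨⟨(hs.mono (erase_subset _ _)).insert hGx fun u hu => ?_, ?_⟩, fun u hu => ?_⟩,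
            fun u hu => ?_⟩
          · exact (hin u hu).2.symm.imp id fun h => h.trans le_sup_left
          · rw [card_insert_of_notMem hrρ, card_erase_of_mem hxτ, hc]
            have := card_pos.2 ⟨x, hxτ⟩
            omega
          · rcases mem_insert.1 hu with rfl | hu
            · exact Or.inl (Submodule.mem_sup_right (Submodule.mem_span_singleton_self p))
            · exact (hin u hu).1
          · rcases mem_insert.1 hu with rfl | hu
            · exact Or.inl le_sup_left
            · exact (hin u hu).2.symm.imp (le_sup_left.trans) id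
        obtain ⟨hΔc, hΔe, hΔz⟩ := eliminate W h1 (fun x => cone (x ⊔ Submodule.span K {p}) (lk x w))
          (M := 1) fun x hx => ⟨bd_cone_of_cycle _ (by rw [bd_lk, hwc, map_zero]),
            by simpa using card_cone_le _ (lk x w)⟩
        refine ⟨y + ∑ x ∈ W, cone x (cone (x ⊔ Submodule.span K {p}) (lk x w)),
          hy.add (On.sum fun x hx σ hσ => ?_), ?_, ?_, ?_⟩
        · obtain ⟨τ, hτ, hxτ, rfl⟩ := mem_support_cone hσ
          obtain ⟨⟨⟨hs, hc⟩, -⟩, hcmp⟩ := (hg x hx).2 τ hτ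
          exact ⟨hs.insert (hg x hx).1 hcmp, by rw [card_insert_of_notMem hxτ, hc]⟩
        · rw [map_add, ← add_assoc, hw, hΔe]
          refine on_filter_add (fun σ hσ hσW => ⟨(hz' σ hσ).1, fun u hu => ?_⟩)
            (fun x hx => (hg x hx).2.mono fun σ h => h.1) fun x _ σ h => h
          by_cases hpu : p ∈ u
          · exact Or.inl hpu
          · obtain ⟨hGu, hdu⟩ := ((hz' σ hσ).2 u hu).resolve_left hpu
            refine Or.inr ⟨hGu, lt_of_le_of_ne (by omega) fun he => ?_⟩
            exact hσW u (mem_filter.2 ⟨mem_biUnion.2 ⟨σ, hσ, hu⟩, hpu, by omega⟩) hu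
        · calc _ ≤ y.support.card + _ := (card_le_card Finsupp.support_add).trans (card_union_le _ _)
            _ ≤ 2 ^ i * z₁.support.card + 1 * (2 ^ i * z₁.support.card) :=
                add_le_add hyc (hΔc.trans (Nat.mul_le_mul_left _ hzc))
            _ = _ := by ring
        · rw [map_add, ← add_assoc, hw]
          refine hΔz.trans ((Nat.mul_le_mul_left _ hzc).trans (le_of_eq ?_))
          ring
    obtain ⟨y₂, hy₂, hz₂, hy₂c, hz₂c⟩ := loop n le_rfl
    have hP : GVtx G B (Submodule.span K {p}) := by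
      refine ⟨(Submodule.span_singleton_le_iff_mem _ _).2 hp, fun h => ?_,
        fun h => hp0 ((Submodule.span_singleton_eq_bot).1 h), ?_⟩
      · have := finrank_span_singleton (K := K) hp0
        rw [h, hB] at this
        omega
      · simpa using hH₀ p hp hpn
    refine ⟨y₁ + (y₂ + cone (Submodule.span K {p}) (z₁ + bd y₂)),
      hy₁on.add (hy₂.add fun σ hσ => ?_), ?_, ?_⟩
    · obtain ⟨τ, hτ, hpτ, rfl⟩ := mem_support_cone hσ
      obtain ⟨⟨hs, hc⟩, hv⟩ := hz₂ τ hτ
      exact ⟨hs.insert hP fun u hu => Or.inl ((Submodule.span_singleton_le_iff_mem _ _).2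
        ((hv u hu).elim id fun h => by omega)), by rw [card_insert_of_notMem hpτ, hc]⟩
    · rw [map_add, map_add, bd_cone_of_cycle _ (by rw [map_add, hc₁, bd_bd, add_zero]), ← hw₁]
      calc bd y₁ + (bd y₂ + (z + bd y₁ + bd y₂))
          = z + ((bd y₁ + bd y₂) + (bd y₁ + bd y₂)) := by abel
        _ = z := by rw [add_self_eq_zero', add_zero]
    · have h2 : (y₂ + cone (Submodule.span K {p}) (z₁ + bd y₂)).support.card ≤
          2 * (2 ^ n * z₁.support.card) := by
        refine ((card_le_card Finsupp.support_add).trans (card_union_le _ _)).trans ?_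
        rw [two_mul]
        exact add_le_add hy₂c ((card_cone_le _ _).trans hz₂c)
      calc _ ≤ y₁.support.card + _ := (card_le_card Finsupp.support_add).trans (card_union_le _ _)
        _ ≤ M₁ * z.support.card + 2 * (2 ^ n * ((1 + M₁) * z.support.card)) :=
            add_le_add hy₁c (h2.trans (by gcongr))
        _ ≤ (n + 1) * ((1 + M₁) * z.support.card) + 2 * (2 ^ n * ((1 + M₁) * z.support.card)) :=
            Nat.add_le_add_right ((Nat.mul_le_mul_right _ (by omega)).trans
              (Nat.le_mul_of_pos_left _ (by omega))) _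
        _ = _ := by ring

end Vale.Agent.P067.Full.Opp
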