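import Vale.Agent.P067.Full.Opp.Chambers

/-!
P067: the opposite complex of type A has coboundary expansion below the top dimension, with a
constant independent of the field.
-/

set_option linter.unusedSectionVars false

namespace Vale.Agent.P067.Full.Opp

open Finset Module Vale.Agent.P067.Sparse

/-- A contraction of the simplices is one of the faces of a complex with those simplices. -/
theorem IsContr.contraction {X : Type} [DecidableEq X] [Fintype X] {F : Finset (Finset X)}
    {P : Finset X → Prop} {d M j : ℕ} {H : Ch X →ₗ[ZMod 2] Ch X} (h : IsContr P d M H)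
    (hF : ∀ σ m, σ ∈ faces F m ↔ P σ ∧ σ.card = m) (hj : j ≤ d) : Contraction F j M H H := by
  intro σ hσ
  obtain ⟨hP, hc⟩ := (hF σ j).1 hσ
  obtain ⟨h1, h2, h3⟩ := h σ hP (hc ▸ hj)
  exact ⟨fun τ hτ => (hF τ (j + 1)).2 ⟨(h1 τ hτ).1, by rw [(h1 τ hτ).2, hc]⟩, h2, h3⟩

variable {K V : Type} [Field K] [AddCommGroup V] [Module K V] [FiniteDimensional K V]
  [DecidableEq (Submodule K V)] [Fintype (Submodule K V)] {E : ℕ → Submodule K V} {n : ℕ}

theorem transitive_chambers (hE : IsFlag E n) (htop : E n = ⊤) {t t' : Finset (Submodule K V)}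
    (ht : t ∈ chambers E n) (ht' : t' ∈ chambers E n) :
    ∃ g ∈ autF (chambers E n), t.image g = t' := by
  classical
  obtain ⟨h1, h2⟩ := mem_chambers.1 ht
  obtain ⟨h3, h4⟩ := mem_chambers.1 ht'
  obtain ⟨e, he, -, himg⟩ := exists_aut hE htop h1 h2 h3 h4
  let g : Equiv.Perm (Submodule K V) := (Submodule.orderIsoMapComap e).toEquiv
  have hg : ∀ x, g x = x.map (e : V →ₗ[K] V) := fun x => rfl
  have hle : ∀ x y, g x ≤ g y ↔ x ≤ y := fun x y => (Submodule.orderIsoMapComap e).le_iff_le
  refine ⟨g, mem_autF.2 fun s => ?_, by rw [← himg]; exact image_congr fun x _ => hg x⟩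
  rw [mem_chambers, mem_chambers, card_image_of_injective _ g.injective]
  refine and_congr_left fun _ => ?_
  simp only [OSimp, forall_mem_image, hle]
  refine and_congr_left fun _ => forall₂_congr fun x _ => ?_
  rw [hg, ovtx_map he]

/-- Coboundary expansion in the numbers of chambers through the faces. -/
theorem exists_cobound_opp (n d : ℕ) (hd : d + 2 ≤ n) : ∃ M q₀ : ℕ, ∀ (K V : Type) [Field K]
    [AddCommGroup V] [Module K V] [FiniteDimensional K V] [DecidableEq (Submodule K V)]
    [Fintype (Submodule K V)] (E : ℕ → Submodule K V), IsFlag E n → E n = ⊤ → q₀ < Nat.card K →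
    ∀ k < d, ∀ f : Cochain (chambers E n) (k + 1), ∃ a : Cochain (chambers E n) k,
      ∑ σ ∈ csupp (f - cbd (chambers E n) k a), wt (chambers E n) σ ≤
        M * ∑ σ ∈ csupp (cbd (chambers E n) (k + 1) f), wt (chambers E n) σ := by
  obtain ⟨M, q₀, h⟩ := exists_contr_opp n d hd
  refine ⟨2 ^ n * M, q₀, fun K V _ _ _ _ _ _ E hE htop hq k hk f => ?_⟩
  obtain ⟨H, hH⟩ := h K V E hE hq
  have hHc := hH.contraction (F := chambers E n) (j := k + 1) (fun σ m => mem_faces_chambers hE) hk
  obtain ⟨a, ha⟩ := exists_cobound (d := n - 2) (chambers_nonempty hE)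
    (fun t ht => by rw [(mem_chambers.1 ht).2]; omega)
    (fun t ht t' ht' => transitive_chambers hE htop ht ht') hHc f
  refine ⟨a, ha.trans ?_⟩
  rw [mul_assoc]
  exact Nat.mul_le_mul_right _ ((Nat.choose_le_two_pow _ _).trans
    (Nat.pow_le_pow_right (by omega) (by omega)))

end Vale.Agent.P067.Full.Opp
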